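import Vale.Agent.P054.Fin3

namespace Vale.Agent.Results.P054.EpsAll

theorem result :
    ∀ d : ℕ, 3 ≤ d → ∀ ε : ℝ, 0 < ε → ∃ c : ℝ, 0 < c ∧
      ∀ P : Finset (EuclideanSpace ℝ (Fin d)), 2 ≤ P.card →
        c * (P.card : ℝ) ^ (2 / (d : ℝ) - ε) ≤
          (Set.ncard {r : ℝ | ∃ p ∈ P, ∃ q ∈ P, p ≠ q ∧ r = dist p q} : ℝ) := by
  intro d hd ε hε
  have key : Vale.Agent.P054.DistB d (2 / (d : ℝ) - ε) := by
    rcases Nat.eq_or_lt_of_le hd with rfl | h4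
    · exact Vale.Agent.P054.distB_three (by push_cast; linarith)
    · exact Vale.Agent.P054.distB_main d h4 _ (by linarith)
  obtain ⟨c, hc, h⟩ := key
  refine ⟨c, hc, fun P hP => ?_⟩
  obtain ⟨Q, hQ, hn⟩ := Vale.Agent.P054.ncard_dist_eq P
  have h1 := h Q (hQ ▸ hP)
  rw [hQ, hn] at h1
  exact h1

end Vale.Agent.Results.P054.EpsAll
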